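import Vale.Agent.N258Q.Sat

/-!
Dehn surgeries on knots obtained from cosets of braids by arbitrary re-embeddings of the
complement of some strands (satellites, infections along string links); the slopes `2` and `-2`.
-/

namespace Vale.Agent.Results.P258.A0Infection

open Topology Vale.Agent.P258.Braid Vale.Agent.N258B

/-- Close the first `2 b` strands of a braid word `w` on `2 b + o` strands as a plat, remove the
other `o` strands (extended to infinity) from `ℂ × ℝ`, and embed what remains as an open subset of
the three-sphere in any way; `ν` is a tubular neighbourhood of the image of the plat with the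
preferred framing.
(1) For a finite group `G` there is a normal subgroup `S` of finite index of the braid group such
that, if `w` is in the coset of a word `w0` on the first `2 b` strands, the surgeries on the knot
given by `w` have as many homomorphisms to `G` as the surgeries on the plat closure of `w0` or on
its mirror image.
(2) For `b = 3` and the cosets of the words `fam n ++ turn`, `n` odd and not congruent to `±1`,
`±121`, `±361` modulo `840`: `ν` exists, and the surgeries of slopes `2` and `-2` (modulo `840`)
have non-isomorphic fundamental groups and are not homotopy equivalent.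
(3) For `o = 1` each of these cosets contains a word such that, for all embeddings, the longitude
is a product of two commutators and the commutator subgroup of the knot group is perfect; if
`9 ∣ n`, the extra strand is essential in the complement of the plat. -/
theorem result :
    (∀ (b o : ℕ) (G : Type) [Group G] [Finite G],
      ∃ S : Subgroup (BraidGroup (2 * b + o)), S.Normal ∧ S.FiniteIndex ∧
        ∀ w0 w : Word, (∀ x ∈ w0, x.1 + 1 < 2 * b) → InCoset S w0 w →
          ∀ e0 ν0 e ν, Framed b 0 w0 e0 ν0 → Framed b o w e ν →
            ∃ ε : ℤ, (ε = 1 ∨ ε = -1) ∧ ∀ (p : ℤ) (z : Surgery ν p) (z0 : Surgery ν0 (ε * p)),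
              homs G z = homs G z0) ∧
    ∀ o : ℕ, ∃ S : Subgroup (BraidGroup (2 * 3 + o)), S.Normal ∧ S.FiniteIndex ∧
      ∀ n : ℤ, Odd n → n % 840 ∉ [1, 121, 361, 479, 719, 839] →
        (∀ w : Word, InCoset S (fam n ++ turn) w →
          ∀ e, (IsOpenEmbedding e → ∃ ν, Framed 3 o w e ν) ∧
            ∀ ν, Framed 3 o w e ν → ∀ p r : ℤ, 840 ∣ p - 2 → 840 ∣ r + 2 →
              Distinct (Surgery ν p) (Surgery ν r)) ∧
        (o = 1 → ∃ w : Word, InCoset S (fam n ++ turn) w ∧ (9 ∣ n → Essential 3 w 6) ∧
          ∀ e ν, Framed 3 o w e ν → GenusTwoAlexOne ν) := by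
  refine ⟨fun b o G _ _ => ?_, Vale.Agent.N258Q.explicit⟩
  obtain ⟨S, h1, h2, h3⟩ := general b o G
  exact ⟨S, h1, h2, fun w0 w h0 h => h3 w0 w h0 h.1 h.2⟩

end Vale.Agent.Results.P258.A0Infection
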