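import Vale.Agent.N258B.K5

/-!
A parity obstruction to the pair of slopes `2`, `-2`, from double covers of finite groups, for
all knots in plat position, their braid cosets, satellites and infections.
-/

namespace Vale.Agent.Results.P258.A0Parity

open Topology Vale.Agent.P258.Braid Vale.Agent.N258B

/-- `w` is a braid word on `2 b` strands, closed as a plat and embedded in the three-sphere; `ν` is
a tubular neighbourhood of it with the preferred framing, `m` and `l` are the meridian and the
longitude in the group of the knot.  If `pr : G → Q` is a double cover of finite groups with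
kernel `{1, z}`, with a normal subgroup `N` and a group `A` of automorphisms (`Cover`), and the
parity condition `OddCover` holds, then the surgeries of slopes `2` and `-2` have non-isomorphic
fundamental groups and are not homotopy equivalent, for this knot and for all knots given by the
words in a coset of `w` with extra strands and all re-embeddings (`Stable`). -/
theorem result (b : ℕ) (w : Word) (hw : ∀ x ∈ w, x.1 + 1 < 2 * b) (e : ↥(pattern b 0 w) → S3)
    (ν : Circle × ℂ → S3) (hF : Framed b 0 w e ν) (x : ↥(core ν)ᶜ)
    (m l : FundamentalGroup (↥(core ν)ᶜ) x) (hml : Periph ν m l)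
    (G Q : Type) [Group G] [Group Q] [Finite G] (pr : G →* Q) (z : G) (N : Subgroup Q)
    (A : Subgroup (MulAut Q)) (hC : Cover pr z N A) (h : OddCover m l pr z N A) :
    Stable b w := by
  obtain ⟨mu, lam, hmu, hlam, rfl, rfl⟩ := hml
  obtain ⟨hs, hz, hker, hN, hA2, hA1⟩ := hC
  obtain ⟨eX, E⟩ := exists_emb (ok_of_small hF.pos hw 0) hF.1 hF.2.1 hF.2.2.1
  have hν := hF.2.1
  have hK := kg hw E hF.2.2.2 mu lam hmu hlam
  obtain ⟨y⟩ := nonempty_surgery ν 2
  obtain ⟨y'⟩ := nonempty_surgery ν (-2)
  refine stable hw hF fun hc => h.2.2 ?_
  refine parity_aut hK pr hs hz hker N A hA1 hA2 (fun H _ _ => ?_) h.1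
    fun ρ a1 a2 a3 => h.2.1 ρ ⟨a1, a2, a3⟩
  rw [← card_slope hν mu lam hmu hlam 2 y H, ← card_slope hν mu lam hmu hlam (-2) y' H, hc]

end Vale.Agent.Results.P258.A0Parity
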